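import Vale.Agent.P088.R2.H558.G.TopL
import Vale.Agent.P088.R2.H972.EP.Zs
import Vale.Agent.P088.R2.H205.C.ZSup
import Vale.Agent.P088.R2.H341.C.RF

/-!
# P088, stage 3, EST': the payments `z0` | `zI`, both orders
-/

open Set Filter
open scoped ContDiff Topology Matrix

noncomputable section

namespace Vale.Agent.P088.R2.H341.PzI

open Vale.Agent.P088.LR Vale.Agent.P088.HY
open Vale.Agent.P088.R2.H31.EP Vale.Agent.P088.R2.H867.EP
open Vale.Agent.P088.R2.H961.GW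
open Vale.Agent.P088.R2.H551.E
open Vale.Agent.P088.R2.H455.E
open Vale.Agent.P088.R2.H558.G
open Vale.Agent.P088.R2.H464.Cu (mid dif rq)
open Vale.Agent.P088.R2.H932.EP (ep wt NrC evNr)
open Vale.Agent.P088.R2.H932.EP.NrC (Calm)
open Vale.Agent.P088.R2.H972.EP (a0 a0_nb a0_nn ch_d ch_d1 dq_ep sum_sq_le gp_le gq_le)
open Vale.Agent.P088.R2.H205.CP (gq gp OI)
open Vale.Agent.P088.R2.H867.Z (sq1 sqp sq1_nn sqp_nn)
open Vale.Agent.P088.R2.H338.TC (Na rx ry rr)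
open Vale.Agent.P088.R2.H341.RF (Rp Tr rp_of Ag Cp Cp1 Ag0 form_bd s1_le s2_le tt sum_le_n)
open Vale.Agent.P088.R2.H238.C (Gp ww Th Te LI OI_LI Gp_sq N_ge N_pos K_pos N_comp)

variable {n : ℕ} {q : Cst} {d : Pk n} {z : VV n}

/-! ## The derivatives of the cut-offs -/

theorem sq1_eq (χ : VV n → ℝ) (z : VV n) : sq1 χ z = 1 / 2 * gp χ z + 2 * gq χ z := by
  unfold sq1 gp gq H205.CP.dp H205.CP.dq
  rw [Finset.mul_sum, Finset.mul_sum, ← Finset.sum_add_distrib]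
  exact Finset.sum_congr rfl fun i _ => by ring

/-- `|D_q χ|²` in region 0. -/
theorem gq_z0 (hq : NrC n q) (hη : q.ηc ≤ 1) (h : PkOk q d) (hc0 : 0 < q.c₀)
    (z : VV n) : gq (d.ch q .z0) z ≤ n * (a0 n q ^ 2 * (1 + 2 / q.c₀ ^ 2)) := by
  have h0 := a0_nn hq
  have hk : Near .z0 := Or.inl rfl
  have p1 : 0 ≤ 2 / q.c₀ ^ 2 := by positivity
  refine sum_sq_le fun i => ?_
  rw [dq_ep]
  have key : |fderiv ℝ (d.ch q .z0) z (ep (Sum.inr i))| ^ 2 ≤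
      a0 n q ^ 2 * (1 + 2 / q.c₀ ^ 2) := by
    by_cases hc : Calm d q .z0 z
    · have h1 := pow_le_pow_left₀ (abs_nonneg _) (ch_d1 hq hη h hk hc (Sum.inr i)) 2
      exact h1.trans (le_mul_of_one_le_right (sq_nonneg _) (by linarith))
    · have h2 : 0 < rq (gi d.s₁) z ∧ (rq (gi d.s₁) z)⁻¹ ≤ 2 / q.c₀ ^ 2 := by
        unfold H932.EP.NrC.Calm at hc
        push Not at hc
        obtain ⟨i, hi, hi', h3, h4⟩ := hc
        rcases hi' with rfl | rfl | rfl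
        · have h5 : q.c₀ ^ 2 ≤ 2 * rq (gi d.s₁) z := tauR_ge hc0 h3.le
          have h6 : 0 < q.c₀ ^ 2 := by positivity
          have h7 : 0 < rq (gi d.s₁) z := by linarith
          refine ⟨h7, ?_⟩
          rw [inv_eq_one_div, div_le_div_iff₀ h7 h6]
          linarith
        · exact absurd hi (by decide)
        · exact absurd hi (by decide)
      have h1 := ch_d hq hη h hk h2.1 (Sum.inr i)
      have h5 : wt (rq (gi d.s₁) z) (Sum.inr i) = (√(rq (gi d.s₁) z))⁻¹ := rfl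
      have h6 := pow_le_pow_left₀ (abs_nonneg _) h1 2
      rw [h5, mul_pow, inv_pow, Real.sq_sqrt h2.1.le] at h6
      refine h6.trans (mul_le_mul_of_nonneg_left ?_ (sq_nonneg _))
      linarith [h2.2]
  rwa [sq_abs] at key

/-- The bound of `sq1` in region 0. -/
def Zb (n : ℕ) (q : Cst) : ℝ := n * a0 n q ^ 2 * (1 / 2 + 2 * (1 + 2 / q.c₀ ^ 2))

/-- The bound of `sq1 / N` in region I next to region 0. -/
def A3 (n : ℕ) (q : Cst) : ℝ := Zb n q + 8 * n * a0 n q ^ 2 / (q.cK * q.aC)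

theorem Zb_nb (n : ℕ) : NB_c' (Zb n) := fun q => by
  have h : a0 n q.b_c' = a0 n q := (a0_nb n q.b_c').symm.trans (a0_nb n q)
  unfold Zb
  rw [h]
  rfl

theorem A3_nb (n : ℕ) : NB_c' (A3 n) := fun q => by
  have h : a0 n q.b_c' = a0 n q := (a0_nb n q.b_c').symm.trans (a0_nb n q)
  unfold A3
  rw [h, Zb_nb n q]
  rfl

theorem Zb_nn (n : ℕ) (q : Cst) : 0 ≤ Zb n q := by unfold Zb; positivity

theorem sq1_z0 (hq : NrC n q) (hη : q.ηc ≤ 1) (h : PkOk q d) (hc0 : 0 < q.c₀) (z : VV n) :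
    sq1 (d.ch q .z0) z ≤ Zb n q := by
  have h1 := gq_z0 hq hη h hc0 z
  have h2 := gp_le hq hη h (k := .z0) (Or.inl rfl) z
  rw [sq1_eq]
  unfold Zb
  nlinarith

theorem sq1_zI (hq : NrC n q) (hη : q.ηc ≤ 1) (h : PkOk q d) (hc0 : 0 < q.c₀) (hcK : 0 < q.cK)
    (haC : 0 < q.aC) {z : VV n} (hK : 1 ≤ d.Kf q z) (hN : 1 ≤ d.N q z)
    (hE : q.aC * d.E q z ≤ 2 * d.N q z) :
    sq1 (d.ch q .zI) z ≤ A3 n q * d.N q z := by
  have h1 := gq_le hq hη h hc0 hcK z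
  have h2 := gp_le hq hη h (k := .zI) (Or.inr (Or.inl rfl)) z
  have hE0 : 0 < d.E q z := Real.exp_pos _
  have hn : (0 : ℝ) ≤ n := Nat.cast_nonneg n
  have k1 : 2 * d.E q z / (q.cK * d.Kf q z) ≤ 4 * d.N q z / (q.cK * q.aC) := by
    rw [div_le_div_iff₀ (by positivity) (by positivity)]
    calc 2 * d.E q z * (q.cK * q.aC) = 2 * q.cK * (q.aC * d.E q z) := by ring
      _ ≤ 2 * q.cK * (2 * d.N q z) := mul_le_mul_of_nonneg_left hE (by positivity)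
      _ ≤ 2 * q.cK * (2 * d.N q z) * d.Kf q z := le_mul_of_one_le_right (by positivity) hK
      _ = _ := by ring
  have k2 : (n : ℝ) * (a0 n q ^ 2 * (1 + 2 / q.c₀ ^ 2 + 2 * d.E q z / (q.cK * d.Kf q z))) ≤
      n * (a0 n q ^ 2 * (1 + 2 / q.c₀ ^ 2 + 4 * d.N q z / (q.cK * q.aC))) := by
    refine mul_le_mul_of_nonneg_left (mul_le_mul_of_nonneg_left ?_ (sq_nonneg _)) hn
    linarith
  have k3 : Zb n q ≤ Zb n q * d.N q z := le_mul_of_one_le_right (Zb_nn n q) hN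
  have e1 : A3 n q * d.N q z = Zb n q * d.N q z +
      2 * (n * (a0 n q ^ 2 * (4 * d.N q z / (q.cK * q.aC)))) := by
    unfold A3
    ring
  have e2 : Zb n q = 1 / 2 * (n * a0 n q ^ 2) + 2 * (n * (a0 n q ^ 2 * (1 + 2 / q.c₀ ^ 2))) := by
    unfold Zb
    ring
  rw [sq1_eq, e1]
  nlinarith

/-! ## The forms from below -/

/-- One entry: `a = A v + B`. -/
theorem ent {A v₁ v₂ t B : ℝ} (ht : |t| ≤ 1 / 4) :
    A ^ 2 * (1 / 4 * v₁ ^ 2 - 1 / 32 * v₂ ^ 2) - B ^ 2 ≤ (A * (v₁ + t * v₂) + B) ^ 2 := by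
  have h1 : t ^ 2 ≤ 1 / 16 := by
    have := pow_le_pow_left₀ (abs_nonneg t) ht 2
    rw [sq_abs] at this
    linarith
  have h2 : 1 / 2 * v₁ ^ 2 - 1 / 16 * v₂ ^ 2 ≤ (v₁ + t * v₂) ^ 2 := by
    nlinarith [sq_nonneg (v₁ + 2 * (t * v₂)), mul_le_mul_of_nonneg_right h1 (sq_nonneg v₂)]
  have h3 := mul_le_mul_of_nonneg_left h2 (sq_nonneg A)
  nlinarith [sq_nonneg (A * (v₁ + t * v₂) + 2 * B)]

theorem low {A N X Y V P : ℝ} (hA : N ≤ A) (hN : 0 ≤ N) (hX : 9 / 10 ≤ X) (hY : Y ≤ 11 / 10)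
    (hP : P ≤ 1 / 25 * N ^ 2) (h : A ^ 2 * (1 / 4 * X - 1 / 32 * Y) - P ≤ V) :
    1 / 8 * N ^ 2 ≤ V := by
  have h1 : N ^ 2 ≤ A ^ 2 := pow_le_pow_left₀ hN hA 2
  have h2 : 19 / 100 ≤ 1 / 4 * X - 1 / 32 * Y := by linarith
  have h3 : N ^ 2 * (19 / 100) ≤ A ^ 2 * (1 / 4 * X - 1 / 32 * Y) :=
    mul_le_mul h1 h2 (by norm_num) (sq_nonneg A)
  nlinarith [sq_nonneg N]

/-- The numbers of a point of `z0` and `zI`. -/
structure Pt (q : Cst) (d : Pk n) (z : VV n) : Prop where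
  rp : Rp 1 q d z
  x : z.1 ∈ Gp q d
  y : z.2 ∈ Gp q d
  hc : 20 * (n * Cp * (Ag n + 1)) * (2 * q.c₀) ≤ q.aC
  hr : d.r2 z ≤ (2 * q.c₀) ^ 2
  hE : q.aC * d.E q z ≤ 2 * d.N q z
  hN : d.N q z ≤ q.aC * d.E q z
  K1 : 1 ≤ d.Kf q z
  Na2 : Na d z ≤ 2 * d.N q z

theorem Pt.B (h : Pt q d z) {b : Fin n → ℝ} (hb : ∀ i, b i ^ 2 ≤ Ag n ^ 2 * d.r2 z) :
    ∑ i, (d.E q z * (deriv (prS q.e₁) (d.r2 z) * (2 * b i))) ^ 2 ≤ 1 / 25 * d.N q z ^ 2 := by
  have hE0 : 0 < d.E q z := Real.exp_pos _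
  have hC := Cp1
  have hA := Ag0 n
  have n1 : (1 : ℝ) ≤ n := by exact_mod_cast h.rp.p.n1
  have hc0 := h.rp.t.T.c0
  have s1 : deriv (prS q.e₁) (d.r2 z) ^ 2 ≤ Cp ^ 2 := by
    have := pow_le_pow_left₀ (abs_nonneg _) h.rp.nb.s1 2
    rwa [sq_abs] at this
  have k : ∀ i, (d.E q z * (deriv (prS q.e₁) (d.r2 z) * (2 * b i))) ^ 2 ≤
      d.E q z ^ 2 * (Cp ^ 2 * (4 * (Ag n ^ 2 * (2 * q.c₀) ^ 2))) := by
    intro i
    have e : (d.E q z * (deriv (prS q.e₁) (d.r2 z) * (2 * b i))) ^ 2 =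
        d.E q z ^ 2 * (deriv (prS q.e₁) (d.r2 z) ^ 2 * (4 * b i ^ 2)) := by ring
    rw [e]
    refine mul_le_mul_of_nonneg_left ?_ (sq_nonneg _)
    refine mul_le_mul s1 ?_ (by positivity) (sq_nonneg _)
    have h1 := hb i
    have h2 := mul_le_mul_of_nonneg_left h.hr (sq_nonneg (Ag n))
    linarith
  have h1 := sum_le_n k
  have h2 : 10 * (n * Cp * (Ag n + 1)) * (2 * q.c₀) * d.E q z ≤ d.N q z := by
    have := mul_le_mul_of_nonneg_right h.hc hE0.le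
    have := h.hE
    linarith
  have h3 : 10 * (n * Cp * Ag n) * (2 * q.c₀) * d.E q z ≤ d.N q z := by
    refine le_trans ?_ h2
    have : 0 ≤ 10 * (n * Cp) * (2 * q.c₀) * d.E q z := by positivity
    linarith
  have h4 := pow_le_pow_left₀ (by positivity) h3 2
  refine h1.trans ?_
  have h5 : (n : ℝ) * (d.E q z ^ 2 * (Cp ^ 2 * (4 * (Ag n ^ 2 * (2 * q.c₀) ^ 2)))) ≤
      (n : ℝ) ^ 2 * (d.E q z ^ 2 * (Cp ^ 2 * (4 * (Ag n ^ 2 * (2 * q.c₀) ^ 2)))) := by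
    refine mul_le_mul_of_nonneg_right ?_ (by positivity)
    nlinarith
  refine h5.trans ?_
  nlinarith

theorem Pt.s (h : Pt q d z) : 0 ≤ d.E q z * prS q.e₁ (d.r2 z) :=
  mul_nonneg (Real.exp_pos _).le h.rp.nb.s0

theorem Pt.Fx (h : Pt q d z) : 1 / 16 * d.N q z ^ 2 ≤ d.sx.F (d.W q) z := by
  have hN := h.rp.nb.N0
  have hs := h.s
  have hσ := h.rp.t.T.σ1
  have e : d.sx.F (d.W q) z = ∑ i, ∑ j, d.s₁ z.1 i j * dx i (d.W q) z * dx j (d.W q) z := by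
    unfold Sl.F Sl.Γ Sl.D Pk.sx slx dx
    simp only [one_mul]
  have h1 := (form_bd (s1_le h.rp.p.ok z.1) h.rp.t.E.nε fun i => dx i (d.W q) z).1
  have h2 : (d.N q z + d.E q z * prS q.e₁ (d.r2 z)) ^ 2 * (1 / 4 * HY.sq (ww n q z.1) -
      1 / 32 * HY.sq (ww n q (mid z))) - (∑ i, (d.E q z * (deriv (prS q.e₁) (d.r2 z) *
      (2 * dx i (rq (gi d.s₁)) z))) ^ 2) ≤ ∑ i, dx i (d.W q) z ^ 2 := by
    have k := Finset.sum_le_sum fun (i : Fin n) (_ : i ∈ Finset.univ) =>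
      ent (A := d.N q z + d.E q z * prS q.e₁ (d.r2 z)) (v₁ := ww n q z.1 i)
        (v₂ := ww n q (mid z) i) (t := tt q d z) (B := d.E q z * (deriv (prS q.e₁) (d.r2 z) *
          (2 * dx i (rq (gi d.s₁)) z))) h.rp.tb
    simp only [← h.rp.p.dxW] at k
    rw [Finset.sum_sub_distrib, ← Finset.mul_sum, Finset.sum_sub_distrib, ← Finset.mul_sum,
      ← Finset.mul_sum] at k
    exact k
  have h3 := low (by linarith) hN.le (by linarith [(Gp_sq h.rp.p.ok h.rp.t.T h.x).1]) h.rp.s2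
    (h.B h.rp.bx) h2
  rw [e]
  linarith

theorem Pt.Fy (h : Pt q d z) : 1 / 16 * d.N q z ^ 2 ≤ d.sy.F (d.W q) z := by
  have hN := h.rp.nb.N0
  have hs := h.s
  have hσ := h.rp.t.T.σ1
  have e : d.sy.F (d.W q) z = ∑ i, ∑ j, d.s₂ z.2 i j * dy i (d.W q) z * dy j (d.W q) z := by
    unfold Sl.F Sl.Γ Sl.D Pk.sy sly dy
    simp only [one_mul]
  have h1 := (form_bd (s2_le h.rp.p.ok z.2) h.rp.t.E.nε fun i => dy i (d.W q) z).1
  have h2 : (d.N q z + d.E q z * prS q.e₁ (d.r2 z)) ^ 2 * (1 / 4 * HY.sq (ww n q z.2) -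
      1 / 32 * HY.sq (ww n q (mid z))) - (∑ i, (d.E q z * (deriv (prS q.e₁) (d.r2 z) *
      (2 * dy i (rq (gi d.s₁)) z))) ^ 2) ≤ ∑ i, dy i (d.W q) z ^ 2 := by
    have k := Finset.sum_le_sum fun (i : Fin n) (_ : i ∈ Finset.univ) =>
      ent (A := d.N q z + d.E q z * prS q.e₁ (d.r2 z)) (v₁ := ww n q z.2 i)
        (v₂ := ww n q (mid z) i) (t := tt q d z) (B := d.E q z * (deriv (prS q.e₁) (d.r2 z) *
          (2 * dy i (rq (gi d.s₁)) z))) h.rp.tb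
    simp only [← h.rp.p.dyW] at k
    rw [Finset.sum_sub_distrib, ← Finset.mul_sum, Finset.sum_sub_distrib, ← Finset.mul_sum,
      ← Finset.mul_sum] at k
    exact k
  have h3 := low (by linarith) hN.le (by linarith [(Gp_sq h.rp.p.ok h.rp.t.T h.y).1]) h.rp.s2
    (h.B h.rp.by') h2
  rw [e]
  linarith

/-! ## The numbers -/

theorem pt_of (hn : 1 ≤ n) (t : Tr n 1 q) (h : PkOk q d)
    (hc : 20 * (n * Cp * (Ag n + 1)) * (2 * q.c₀) ≤ q.aC)
    (hz : z ∈ OI q d) (hu : d.u q z ≤ d.uta q - q.R / 50)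
    (hE : q.aC * d.E q z ≤ 2 * d.N q z) : Pt q d z := by
  have L := OI_LI h t.T t.E hz
  have hR := t.T.R1
  have hN0 := N_pos h t.T (d.u q z)
  refine ⟨rp_of hn one_pos t h hz, L.gz.1, L.gz.2.1, hc, hz.1, hE, hz.2.2.1, ?_, ?_⟩
  · have h1 : d.N q z ^ (9 / 10 : ℝ) ≤ d.Kf q z := L.nu.Kl
    have h2 : (1 : ℝ) ≤ d.N q z := t.T.M1.trans L.nu.N1
    exact (Real.one_le_rpow h2 (by norm_num)).trans h1
  · have hx := abs_le.1 L.x
    have hy := abs_le.1 L.y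
    have hd : |d.u0 z - d.u q z| ≤ 2 / 7 := by
      have e : d.u0 z = d.l z.1 + d.l z.2 := rfl
      rw [abs_le, e]
      constructor <;> linarith
    have hd' := abs_le.1 hd
    have h1 := N_comp h t.T (u := d.u0 z) (v := d.u q z) (by linarith) (by linarith)
    have h2 : Real.exp (41 / 20 * |d.u0 z - d.u q z|) ≤ 2 := by
      have h3 : 41 / 20 * |d.u0 z - d.u q z| ≤ Real.log 2 := by
        have := Real.log_two_gt_d9
        linarith
      calc Real.exp (41 / 20 * |d.u0 z - d.u q z|) ≤ Real.exp (Real.log 2) :=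
            Real.exp_le_exp.2 h3
        _ = 2 := Real.exp_log two_pos
    have h3 := mul_le_mul_of_nonneg_left h2 hN0.le
    have h4 : Na d z ≤ d.N q z * Real.exp (41 / 20 * |d.u0 z - d.u q z|) := h1
    have h5 : d.N q z = deriv d.Φ (d.u q z) := rfl
    rw [h5] at h4 ⊢
    linarith

theorem nb_M {f : Cst → ℝ} (hf : NB_c' f) (q : Cst) : f q.b_M₀ = f q :=
  (hf q.b_M₀).symm.trans (hf q)

theorem nb_c {f : Cst → ℝ} (hf : NB_c₀ f) : NB_c' f := fun q => (hf q.b_c').symm.trans (hf q)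

/-- A threshold for `M₀`. -/
theorem at_M {X : Cst → ℝ} (hX : NB_c' X) : EvC fun q => X q ≤ q.M₀ :=
  (EvC.at_M₀ (fun q t => X q ≤ t) fun _ => eventually_ge_atTop _).mono fun q h => by
    rwa [nb_M hX q] at h

/-- The facts used for both payments. -/
structure Tp (n : ℕ) (q : Cst) : Prop where
  nr : NrC n q
  t : Tr n 1 q
  η : q.ηc ≤ 1
  pt : ∀ d : Pk n, PkOk q d → ∀ z, d.ch q .z0 z ≠ 0 → d.ch q .zI z ≠ 0 → Pt q d z

theorem evTp (hn : 1 ≤ n) : EvC (Tp n) := by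
  have key : ∀ c : ℝ, 0 ≤ c → ∀ b : ℝ, 0 < b → ∀ᶠ t in sml, c * t ≤ b := by
    intro c hc b hb
    filter_upwards [sml_pos, sml_le (a := b / (c + 1)) (by positivity)] with t h1 h2
    rw [le_div_iff₀ (by positivity)] at h2
    nlinarith
  have h1 := EvC.at_c₀ (fun q t => 0 < q.aC → 20 * (n * Cp * (Ag n + 1)) * (2 * t) ≤ q.aC)
    (fun q => by
      by_cases ha : 0 < q.aC
      · have hA := Ag0 n
        have hC := Cp1
        filter_upwards [key (20 * (n * Cp * (Ag n + 1)) * 2) (by positivity) _ ha] with t ht _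
        linarith
      · exact Eventually.of_forall fun t h => absurd h ha)
  have h2 := EvC.at_ηc (fun _ t => t ≤ 1) (fun _ => sml_le one_pos)
  refine ((((h1.and h2).and ((evNr n).and (H341.RF.EvC.tr n 1 one_pos))).and
    ((H205.CP.near_supp n).and (H205.CP.supp_zI n))).and (EvC.litSm n)).mono ?_
  rintro q ⟨⟨⟨⟨a1, a2⟩, a3, a4⟩, a5, a6⟩, a7⟩
  refine ⟨a3, a4, a2, fun d h z hz hI => ?_⟩
  have hs := a7 d h
  have ha := a4.T.aC0
  have hI' : z ∈ tsupport (d.ch q .zI) := subset_tsupport _ (Function.mem_support.2 hI)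
  exact pt_of hn a4 h (a1 ha) (a6 d h hI') (a5 d h .zI (Or.inr (Or.inl rfl)) z hI').fin.ua
    (sd_z0 hz hs.cp ha (N_pos h a4.T _))

/-! ## The densities -/

theorem num1 {C e c Z Zb N K x y a F : ℝ} (hC : 0 < C) (he : 0 < e) (hZ0 : 0 ≤ Z)
    (hZ : Z ≤ Zb) (hN : 1 ≤ N) (hKx0 : 0 ≤ K + x) (hKx : K + x ≤ (4 + 2 / a) * N)
    (hy0 : 0 ≤ y) (hy : y ≤ 1) (hc : 0 < c) (hF : 1 / 16 * N ^ 2 ≤ F)
    (h1 : 1088 * C * (Zb + 1) * e ≤ c)
    (h2 : 1088 * C * Zb * (4 + 2 / a) / (e * c) ≤ N) :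
    34 * (C * (e * (y * Z))) ≤ c ∧
      34 * (C * ((1 / e * (K + x) + e * N ^ 2 * y) * Z)) ≤ c * F := by
  have hZb : 0 ≤ Zb := hZ0.trans hZ
  have hy1 : y * Z ≤ Zb := by
    calc y * Z ≤ 1 * Z := mul_le_mul_of_nonneg_right hy hZ0
      _ ≤ Zb := by rw [one_mul]; exact hZ
  have hCe : 0 < C * e := mul_pos hC he
  have k1 : C * e * (y * Z) ≤ C * e * Zb := mul_le_mul_of_nonneg_left hy1 hCe.le
  have k0 : 0 ≤ C * e * Zb := by positivity
  have k2 : 1088 * (C * e * Zb) ≤ c := by linarith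
  have k3 := mul_le_mul_of_nonneg_right k1 (sq_nonneg N)
  have k4 := mul_le_mul_of_nonneg_right k2 (sq_nonneg N)
  rw [div_le_iff₀ (by positivity)] at h2
  have k5 : C * (1 / e) * ((K + x) * Z) ≤ C * (1 / e) * ((4 + 2 / a) * N * Zb) := by
    refine mul_le_mul_of_nonneg_left (mul_le_mul hKx hZ hZ0 (hKx0.trans hKx)) (by positivity)
  have k6 : 34 * (C * (1 / e) * ((4 + 2 / a) * N * Zb)) ≤ 1 / 32 * (c * N ^ 2) := by
    have h3 := mul_le_mul_of_nonneg_left h2 (show 0 ≤ 1 / 32 * (1 / e) * N by positivity)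
    have e1 : 1 / 32 * (1 / e) * N * (1088 * C * Zb * (4 + 2 / a)) =
        34 * (C * (1 / e) * ((4 + 2 / a) * N * Zb)) := by ring
    have e2 : 1 / 32 * (1 / e) * N * (N * (e * c)) = 1 / 32 * (c * N ^ 2) := by
      field_simp
    rw [e1, e2] at h3
    exact h3
  have k7 := mul_le_mul_of_nonneg_left hF hc.le
  constructor
  · linarith
  · linarith

theorem num2 {C₁ C₂ c N E x ρ M Z S₁ A S : ℝ} (h1 : 0 < C₁) (h2 : 0 < C₂) (hN : 1 ≤ N)
    (hNE : N ≤ E) (hx : E ≤ x) (hM0 : 0 ≤ M) (hM : M ≤ 2 * N) (hρ0 : 0 ≤ ρ) (hρ : ρ ≤ 2)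
    (hZ0 : 0 ≤ Z) (hZ : Z ≤ A * N) (hS : S₁ ≤ S) (hS0 : 0 ≤ S) (hA : 0 ≤ A) (hc : 0 < c)
    (h : 34 * (4 * C₁ * A + 4 * C₂ * A + 2 * C₂ * S) ≤ c * N) :
    34 * (C₁ * (M * ρ * Z) + 2 * (C₂ * (E * Z)) + 2 * (C₂ * (E * S₁ + Z))) ≤ c * (x * N ^ 2) := by
  have hE : 1 ≤ E := hN.trans hNE
  have k1 : C₁ * (M * ρ * Z) ≤ C₁ * (4 * A) * (E * N) := by
    have i1 : M * ρ ≤ 2 * N * 2 := mul_le_mul hM hρ hρ0 (by positivity)
    have i2 : M * ρ * Z ≤ 2 * N * 2 * (A * N) := mul_le_mul i1 hZ hZ0 (by positivity)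
    have i3 : 2 * N * 2 * (A * N) ≤ 2 * N * 2 * (A * E) :=
      mul_le_mul_of_nonneg_left (mul_le_mul_of_nonneg_left hNE hA) (by positivity)
    have i4 := mul_le_mul_of_nonneg_left (i2.trans i3) h1.le
    linarith
  have k2 : C₂ * (E * Z) ≤ C₂ * A * (E * N) := by
    have i1 := mul_le_mul_of_nonneg_left hZ (by positivity : 0 ≤ C₂ * E)
    linarith
  have k3 : C₂ * (E * S₁ + Z) ≤ C₂ * (S + A) * (E * N) := by
    have i1 : E * S₁ ≤ S * (E * N) := by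
      calc E * S₁ ≤ E * S := mul_le_mul_of_nonneg_left hS (by linarith)
        _ ≤ E * S * N := le_mul_of_one_le_right (by positivity) hN
        _ = _ := by ring
    have i2 : Z ≤ A * (E * N) := by
      calc Z ≤ A * N := hZ
        _ ≤ A * N * E := le_mul_of_one_le_right (by positivity) hE
        _ = _ := by ring
    have i3 := mul_le_mul_of_nonneg_left (add_le_add i1 i2) h2.le
    linarith
  have hEN : 0 ≤ E * N := by positivity
  have k4 := mul_le_mul_of_nonneg_right h hEN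
  have k5 : c * N * (E * N) ≤ c * (x * N ^ 2) := by
    have i1 := mul_le_mul_of_nonneg_left hx (by positivity : 0 ≤ c * N ^ 2)
    linarith
  linarith

section dens
variable {E ι : Type*} [NormedAddCommGroup E] [NormedSpace ℝ E] [Fintype ι]
variable {σ τ : Sl E ι} {v₁ v₂ W a b : E → ℝ} {y : E}

/-- A comparison with `(a ± b)² ≤ 2 (a² + b²)`. -/
theorem dens_ab {p M : Q8 E} {q : ℝ} (q0 : 0 ≤ q) (hκ : q * p.κ y ≤ M.κ y)
    (h1 : q * p.ζ₁ y ≤ M.ζ₁ y) (h2 : q * p.ζ₂ y ≤ M.ζ₂ y) (h3 : q * p.ζy y ≤ M.ζy y)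
    (pb : 0 ≤ p.wb y) (pc : 0 ≤ p.wc y) (mb : 0 ≤ M.wb y) (mc : 0 ≤ M.wc y)
    (h4 : q * (p.w₁ y + 2 * p.wb y + 2 * p.wc y) ≤ M.w₁ y)
    (h5 : q * (p.w₂ y + 2 * p.wb y + 2 * p.wc y) ≤ M.w₂ y) :
    q * p.dens σ τ v₁ v₂ W a b y ≤ M.dens σ τ v₁ v₂ W a b y := by
  have k0 := mul_le_mul_of_nonneg_right hκ (sqd_nonneg σ τ v₁ v₂ W a b y)
  have k1 := mul_le_mul_of_nonneg_right h1 (Q8.nX_nonneg σ W a y)
  have k2 := mul_le_mul_of_nonneg_right h2 (Q8.nX_nonneg τ W b y)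
  have k3 := mul_le_mul_of_nonneg_right h3 (Q8.nY_nonneg σ τ W a b y)
  have k4 := mul_le_mul_of_nonneg_right h4 (sq_nonneg (a y))
  have k5 := mul_le_mul_of_nonneg_right h5 (sq_nonneg (b y))
  have k6 : (a y + b y) ^ 2 ≤ 2 * a y ^ 2 + 2 * b y ^ 2 := by nlinarith [sq_nonneg (a y - b y)]
  have k7 : (a y - b y) ^ 2 ≤ 2 * a y ^ 2 + 2 * b y ^ 2 := by nlinarith [sq_nonneg (a y + b y)]
  have k8 := mul_le_mul_of_nonneg_left k6 (mul_nonneg q0 pb)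
  have k9 := mul_le_mul_of_nonneg_left k7 (mul_nonneg q0 pc)
  have j1 := mul_nonneg mb (sq_nonneg (a y + b y))
  have j2 := mul_nonneg mc (sq_nonneg (a y - b y))
  unfold Q8.dens
  linarith

end dens

variable {L : Lc n}

theorem sg01 (hL : L.Ok) (T : Th q) : 0 ≤ sg L q ∧ sg L q ≤ 1 := by
  have h1 := hL.cs.1 q
  have h2 : q.σ / q.R ≤ 1 := by
    rw [div_le_one (by linarith [T.R1])]
    linarith [T.R1, T.σ1]
  have h3 : 0 ≤ q.σ / q.R := div_nonneg T.σ0.le (by linarith [T.R1])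
  unfold H455.E.sg
  exact ⟨mul_nonneg h1.1.le h3, mul_le_one₀ h1.2 h3 h2⟩

/-- The threshold of `e`. -/
def th (L : Lc n) (q : Cst) : ℝ := L.cI q / (1088 * L.C0 q * (Zb n q + 1))

theorem th_sm (hL : L.Ok) : SmE (th L) := by
  refine ⟨fun q => ?_, fun q => ?_⟩
  · unfold th
    rw [nb_c hL.cI.2 q, hL.C0.2 q, Zb_nb n q]
  · have h1 := hL.cI.1 q
    have h2 := hL.C0.1 q
    have h3 := Zb_nn n q
    unfold th
    positivity

/-- The threshold of `M₀`, first payment. -/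
def X1 (L : Lc n) (e : Cst → ℝ) (q : Cst) : ℝ :=
  1088 * L.C0 q * Zb n q * (4 + 2 / q.aC) / (e q * L.cI q)

theorem X1_nb (hL : L.Ok) {e : Cst → ℝ} (he : SmE e) : NB_c' (X1 L e) := fun q => by
  unfold X1
  rw [nb_c hL.cI.2 q, hL.C0.2 q, Zb_nb n q, he.1 q]
  rfl

/-- The threshold of `M₀`, second payment. -/
def X2 (L : Lc n) (q : Cst) : ℝ :=
  34 * (4 * L.CN q * A3 n q + 4 * L.CI q * A3 n q + 2 * L.CI q * (n * a0 n q ^ 2)) / L.c0 q

theorem X2_nb (hL : L.Ok) : NB_c' (X2 L) := fun q => by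
  have h : a0 n q.b_c' = a0 n q := (a0_nb n q.b_c').symm.trans (a0_nb n q)
  unfold X2
  rw [nb_c hL.CI.2 q, hL.CN.2 q, A3_nb n q, hL.c0.2 q, h]

/-- **The payment `z0`, `zI`.** -/
theorem z0_zI (hn : 3 ≤ n) (hL : L.Ok) : PayEW L .z0 .zI := by
  refine ⟨th L, th_sm hL, fun e he hth => ?_⟩
  refine ((evTp (n := n) (by omega)).and (at_M (X1_nb hL he))).mono ?_
  rintro q ⟨T, hX⟩ d h z hz hI a b
  have P := T.pt d h z hz hI
  have t := T.t.T
  have hc0 := t.c0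
  have hcI := hL.cI.1 q
  have hC0 := hL.C0.1 q
  have hcN := hL.cN.1 q
  have he0 := he.2 q
  have hs := sg01 hL t
  have hE1 := P.rp.nb.E1
  have hN0 := P.rp.nb.N0
  have hK := P.rp.nb.K1
  have hK0 := P.rp.nb.K0
  have hm := P.rp.nb.m0
  have hN1 : 1 ≤ d.N q z := t.M1.trans (N_ge h _)
  have hZ := sq1_z0 T.nr T.η h hc0 z
  have hZ0 := sq1_nn (d.ch q .z0) z
  have hNa : 0 ≤ Na d z := (N_pos h t _).le
  have hth' : 1088 * L.C0 q * (Zb n q + 1) * e q ≤ L.cI q := by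
    have h1 := hth q
    have h2 := Zb_nn n q
    unfold th at h1
    rw [le_div_iff₀ (by positivity)] at h1
    linarith
  have hXN : X1 L e q ≤ d.N q z := hX.trans (N_ge h _)
  have hx0 : 0 < d.E q z + sg L q * d.N q z := by
    have := mul_nonneg hs.1 hN0.le
    linarith
  have hx1 : d.E q z + sg L q * d.N q z ≤ d.E q z + d.N q z := by
    have := mul_le_mul_of_nonneg_right hs.2 hN0.le
    linarith
  have hE2 : d.E q z ≤ 2 / q.aC * d.N q z := by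
    rw [div_mul_eq_mul_div, le_div_iff₀ t.aC0]
    linarith [P.hE]
  have hy0 : 0 ≤ (d.E q z + sg L q * d.N q z) / (1 + (d.E q z + sg L q * d.N q z)) := by
    positivity
  have hy1 : (d.E q z + sg L q * d.N q z) / (1 + (d.E q z + sg L q * d.N q z)) ≤ 1 := by
    rw [div_le_one (by linarith)]
    linarith
  have g1 := num1 (K := d.Kf q z) (x := d.E q z + sg L q * d.N q z) (a := q.aC) hC0 he0 hZ0 hZ hN1
    (by linarith) (by linarith) hy0 hy1 hcI P.Fx hth' hXN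
  have g2 := num1 (K := d.Kf q z) (x := d.E q z + sg L q * d.N q z) (a := q.aC) hC0 he0 hZ0 hZ hN1
    (by linarith) (by linarith) hy0 hy1 hcI P.Fy hth' hXN
  have r1 : 0 ≤ L.cN q * (Na d z * (rx q d z ^ 2 + ry q d z ^ 2)) := by positivity
  have r2 : 0 ≤ L.cN q * (Na d z ^ 2 * rx q d z ^ 2 + Na d z ^ 3 * ry q d z ^ 2) := by positivity
  have r3 : 0 ≤ L.cN q * (Na d z ^ 3 * rx q d z ^ 2 + Na d z ^ 2 * ry q d z ^ 2) := by positivity
  have em : d.m q z = d.E q z * d.r2 z := rfl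
  have rE : 0 < d.E q z := by linarith
  have r4 : 0 ≤ L.cI q * (d.N q z ^ 2 * d.E q z ^ 2 / (d.E q z * (1 + d.m q z) + d.N q z ^ 2)) := by
    rw [em]
    positivity
  refine H509.PT.dens_mul_le ?_ ?_ ?_ ?_ ?_ ?_ ?_ ?_
  · show 34 * (0 : ℝ) ≤ L.cI q + 0
    linarith
  · exact g1.1.trans (le_add_of_nonneg_right r1)
  · exact g1.1.trans (le_add_of_nonneg_right r1)
  · show 34 * (0 : ℝ) ≤ L.cI q * d.E q z + 0
    have := mul_pos hcI rE
    linarith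
  · exact g1.2.trans (le_add_of_nonneg_right r2)
  · exact g2.2.trans (le_add_of_nonneg_right r3)
  · show 34 * (0 : ℝ) ≤ L.cI q * d.E q z ^ 2 + 0
    have : 0 ≤ L.cI q * d.E q z ^ 2 := by positivity
    linarith
  · show 34 * (0 : ℝ) ≤ L.cI q * (d.N q z ^ 2 * d.E q z ^ 2 /
      (d.E q z * (1 + d.m q z) + d.N q z ^ 2)) + 0
    linarith

theorem r01 (q : Cst) (d : Pk n) (z : VV n) : rx q d z ^ 2 + ry q d z ^ 2 ≤ 2 := by
  have h0 : 0 ≤ rr q z ∧ rr q z ≤ 1 :=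
    ⟨Real.smoothTransition.nonneg _, Real.smoothTransition.le_one _⟩
  have h1 : rx q d z ^ 2 ≤ 1 := pow_le_one₀
    (mul_nonneg h0.1 (Real.smoothTransition.nonneg _))
    (mul_le_one₀ h0.2 (Real.smoothTransition.nonneg _) (Real.smoothTransition.le_one _))
  have h2 : ry q d z ^ 2 ≤ 1 := pow_le_one₀
    (mul_nonneg h0.1 (Real.smoothTransition.nonneg _))
    (mul_le_one₀ h0.2 (Real.smoothTransition.nonneg _) (Real.smoothTransition.le_one _))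
  linarith

/-- **The payment `zI`, `z0`.** -/
theorem zI_z0 (hn : 3 ≤ n) (hL : L.Ok) : PayEW L .zI .z0 := by
  refine PayEW.all fun e he => ?_
  refine ((evTp (n := n) (by omega)).and (at_M (X2_nb hL))).mono ?_
  rintro q ⟨T, hX⟩ d h z hI hz a b
  have P := T.pt d h z hz hI
  have t := T.t.T
  have hc0 := t.c0
  have hcK := T.t.cK0
  have hc := hL.c0.1 q
  have hCI := hL.CI.1 q
  have hCN := hL.CN.1 q
  have hs := sg01 hL t
  have hE1 := P.rp.nb.E1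
  have hN0 := P.rp.nb.N0
  have hN1 : 1 ≤ d.N q z := t.M1.trans (N_ge h _)
  have hNE : d.N q z ≤ d.E q z := by
    have h1 := P.hN
    have h2 := t.aC1
    have h3 : q.aC * d.E q z ≤ 1 * d.E q z := mul_le_mul_of_nonneg_right (by linarith) (by linarith)
    linarith
  have hZ := sq1_zI T.nr T.η h hc0 hcK t.aC0 P.K1 hN1 P.hE
  have hZ0 := sq1_nn (d.ch q .zI) z
  have hS : sqp (d.ch q .zI) z ≤ n * a0 n q ^ 2 :=
    gp_le T.nr T.η h (k := .zI) (Or.inr (Or.inl rfl)) z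
  have hS0 := sqp_nn (d.ch q .zI) z
  have hNa : 0 ≤ Na d z := (N_pos h t _).le
  have hA : 0 ≤ A3 n q := by
    have := Zb_nn n q
    have := t.aC0
    unfold A3
    positivity
  have hx0 : 0 ≤ sg L q * d.N q z := mul_nonneg hs.1 hN0.le
  have hXN : 34 * (4 * L.CN q * A3 n q + 4 * L.CI q * A3 n q + 2 * L.CI q * (n * a0 n q ^ 2)) ≤
      L.c0 q * d.N q z := by
    have h1 : X2 L q ≤ d.N q z := hX.trans (N_ge h _)
    unfold X2 at h1
    rw [div_le_iff₀ hc] at h1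
    linarith
  have rE : 0 < d.E q z := by linarith
  have g := num2 (x := d.E q z + sg L q * d.N q z) (M := Na d z)
    (ρ := rx q d z ^ 2 + ry q d z ^ 2) hCN hCI hN1 hNE (by linarith) hNa P.Na2 (by positivity)
    (r01 q d z) hZ0 hZ hS (by positivity) hA hc hXN
  refine dens_ab (by norm_num) ?_ ?_ ?_ ?_ ?_ ?_ ?_ ?_ ?_ ?_
  · show 34 * ((0 : ℝ) + 0) ≤ L.c0 q
    linarith
  · show 34 * ((0 : ℝ) + 0) ≤ L.c0 q * (d.E q z + sg L q * d.N q z)
    have : 0 ≤ L.c0 q * (d.E q z + sg L q * d.N q z) := by positivity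
    linarith
  · show 34 * ((0 : ℝ) + 0) ≤ L.c0 q * (d.E q z + sg L q * d.N q z)
    have : 0 ≤ L.c0 q * (d.E q z + sg L q * d.N q z) := by positivity
    linarith
  · show 34 * ((0 : ℝ) + 0) ≤ L.c0 q * d.E q z
    have : 0 ≤ L.c0 q * d.E q z := by positivity
    linarith
  · show (0 : ℝ) ≤ L.CI q * (d.E q z * sq1 (d.ch q .zI) z) + 0
    positivity
  · show (0 : ℝ) ≤ L.CI q * (d.E q z * sqp (d.ch q .zI) z + sq1 (d.ch q .zI) z) + 0
    positivity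
  · exact le_refl (0 : ℝ)
  · exact le_refl (0 : ℝ)
  · refine le_trans (le_of_eq ?_) g
    show 34 * (0 + L.CN q * (Na d z * (rx q d z ^ 2 + ry q d z ^ 2) * sq1 (d.ch q .zI) z) +
      2 * (L.CI q * (d.E q z * sq1 (d.ch q .zI) z) + 0) +
      2 * (L.CI q * (d.E q z * sqp (d.ch q .zI) z + sq1 (d.ch q .zI) z) + 0)) = _
    ring
  · refine le_trans (le_of_eq ?_) g
    show 34 * (0 + L.CN q * (Na d z * (rx q d z ^ 2 + ry q d z ^ 2) * sq1 (d.ch q .zI) z) +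
      2 * (L.CI q * (d.E q z * sq1 (d.ch q .zI) z) + 0) +
      2 * (L.CI q * (d.E q z * sqp (d.ch q .zI) z + sq1 (d.ch q .zI) z) + 0)) = _
    ring

end Vale.Agent.P088.R2.H341.PzI
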